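import Vale.Agent.P221.E.H903.D
import Vale.Agent.P251.S.TowerR
import Vale.Agent.P251.S.TensorShift

/-!
# P221, part E (helper817): closure of the filtered objects under `J ⊗ -`

* `OpSub.clos J G` : the subobject of `R_* (J ⊗ X)` given by `G ⊆ R_* X`;
* `Fl.iso` : invariance under isomorphisms;
* `Fl.clos` : filtrations of `clos J G`, for `AddR R (R ⊗ J)`.
-/

open CategoryTheory MonoidalCategory MonObj Limits Pretriangulated
open Vale.Agent.P251.S Vale.Agent.P251.T Vale.Agent.P251.M Vale.Agent.P093.Nak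
open Vale.Agent.P221.H658 (rb ru)

set_option linter.unusedSectionVars false

universe u

namespace Vale.Agent.P221.E.H817

section push

variable {T : Type u} [Category.{0} T] [MonoidalCategory T]

theorem push_assoc {S D D' J A X : T} (e : S ⊗ D ⟶ D') (y : A ⟶ D ⊗ (J ⊗ X)) :
    push e y ≫ (α_ D' J X).inv = push ((α_ S D J).inv ≫ e ▷ J) (y ≫ (α_ D J X).inv) := by
  simp only [push, MonoidalCategory.whiskerLeft_comp, Category.assoc, comp_whiskerRight]
  rw [associator_inv_naturality_left, pentagon_inv_assoc]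

end push

variable {T : Type u} [Category.{0} T] [Preadditive T] [HasZeroObject T]
    [HasShift T ℤ] [∀ n : ℤ, (shiftFunctor T n).Additive] [Pretriangulated T] [IsTriangulated T]
    [MonoidalCategory T] [SymmetricCategory T] [TensorTriangulated T] [MonoidalClosed T]
    [HasCoproducts.{0} T] [HasProducts.{0} T] [StableCat T]

/-- the subobject of `R_* (J ⊗ X)` -/
def _root_.Vale.Agent.P221.E.OpSub.clos (J : T) {R X : T} (G : OpSub R X) : OpSub R (J ⊗ X) where
  mem y := G.memD (y ≫ (α_ R J X).inv)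
  zero hA B hB e := by
    rw [zero_comp, push_zero']
    exact G.zero (isSphere_tensor hB hA)
  sub hA y y' h h' B hB e := by
    rw [Preadditive.sub_comp, push_sub]
    exact G.sub (isSphere_tensor hB hA) (h B hB e) (h' B hB e)
  comp {A A'} hA hA' u y h B hB e := by
    rw [Category.assoc, push_comp_left]
    exact G.comp (isSphere_tensor hB hA) (isSphere_tensor hB hA') _ (h B hB e)
  op {S A} hS hA e' y h B hB e := by
    rw [push_assoc, push_push]
    exact G.comp (isSphere_tensor (isSphere_tensor hB hS) hA)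
      (isSphere_tensor hB (isSphere_tensor hS hA)) _ (h _ (isSphere_tensor hB hS) _)

/-- invariance of filtrations under isomorphisms -/
theorem _root_.Vale.Agent.P221.E.Fl.iso {R X X' : T} {𝒴 : T → Prop} (i : X ≅ X') {m : ℕ}
    {G : OpSub R X} (h : Fl 𝒴 m G) : ∀ {G' : OpSub R X'},
    (∀ A : T, IsSphere A → ∀ y : A ⟶ R ⊗ X', G'.mem y ↔ G.mem (y ≫ R ◁ i.inv)) → Fl 𝒴 m G' := by
  induction h with
  | zero h0 =>
    intro G' hG'
    refine Fl.zero fun A y hA hy => ?_
    have h1 := h0 A _ hA ((hG' A hA y).1 hy)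
    have h2 : R ◁ i.inv ≫ R ◁ i.hom = 𝟙 (R ⊗ X') := by
      rw [← MonoidalCategory.whiskerLeft_comp, i.inv_hom_id, MonoidalCategory.whiskerLeft_id]
    rw [← Category.comp_id y, ← h2, ← Category.assoc, h1, zero_comp]
  | @succ m G Y q hY _ ih =>
    intro G' hG'
    refine Fl.succ (Y := Y)
      { φ := fun y => q.φ (y ≫ R ◁ i.inv)
        zero := fun hA => by rw [zero_comp, q.zero hA]
        sub := fun {A} hA {y y'} h h' => by
          rw [Preadditive.sub_comp, q.sub hA ((hG' A hA y).1 h) ((hG' A hA y').1 h')]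
        comp := fun {A B} hA hB u y h => by
          rw [Category.assoc, q.comp hA hB u ((hG' A hA y).1 h)]
        op := fun {S A} hS hA e y h => by
          rw [← push_comp_X, q.op hS hA e ((hG' A hA y).1 h)]
        surj := fun {A} hA z => by
          obtain ⟨y, hy, hz⟩ := q.surj hA z
          have h2 : R ◁ i.hom ≫ R ◁ i.inv = 𝟙 (R ⊗ X) := by
            rw [← MonoidalCategory.whiskerLeft_comp, i.hom_inv_id, MonoidalCategory.whiskerLeft_id]
          refine ⟨y ≫ R ◁ i.hom, (hG' A hA _).2 ?_, ?_⟩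
          · rw [Category.assoc, h2, Category.comp_id]
            exact hy
          · rw [Category.assoc, h2, Category.comp_id]
            exact hz } hY (ih fun A hA y => ?_)
    exact and_congr (hG' A hA y) Iff.rfl

theorem _root_.Vale.Agent.P221.E.Fl.congr {R X : T} {𝒴 : T → Prop} {m : ℕ}
    {G G' : OpSub R X} (h : Fl 𝒴 m G)
    (hG' : ∀ A : T, IsSphere A → ∀ y : A ⟶ R ⊗ X, G'.mem y ↔ G.mem y) : Fl 𝒴 m G' :=
  h.iso (Iso.refl X) fun A hA y => by
    rw [hG' A hA y]
    simp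

theorem _root_.Vale.Agent.P221.E.Fl.mono {R X : T} {𝒴 𝒴' : T → Prop} (h𝒴 : ∀ Y, 𝒴 Y → 𝒴' Y)
    {m : ℕ} {G : OpSub R X} (h : Fl 𝒴 m G) : Fl 𝒴' m G := by
  induction h with
  | zero h0 => exact Fl.zero h0
  | succ q hY _ ih => exact Fl.succ q (h𝒴 _ hY) ih

section

variable {R J : T} (P : AddR R (R ⊗ J)) {X Y : T} {G : OpSub R X} (q : Quo G Y)

open Classical in
/-- the quotient map on `clos` -/
noncomputable def qφ {A : T} (y : A ⟶ R ⊗ (J ⊗ X)) : A ⟶ R ⊗ (J ⊗ Y) :=
  if h : ∃ t, q.RelD (y ≫ (α_ R J X).inv) t then h.choose ≫ (α_ R J Y).hom else 0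

include P in
theorem qφ_eq {A : T} (hA : IsSphere A) {y : A ⟶ R ⊗ (J ⊗ X)} {t : A ⟶ R ⊗ (J ⊗ Y)}
    (h : q.RelD (y ≫ (α_ R J X).inv) (t ≫ (α_ R J Y).inv)) : qφ q y = t := by
  have h1 : ∃ t, q.RelD (y ≫ (α_ R J X).inv) t := ⟨_, h⟩
  rw [qφ, dif_pos h1, P.relD_unique q hA h1.choose_spec h, Category.assoc, Iso.inv_hom_id,
    Category.comp_id]

include P in
theorem exists_qφ {A : T} (hA : IsSphere A) {y : A ⟶ R ⊗ (J ⊗ X)}
    (h : (G.clos J).mem y) : q.RelD (y ≫ (α_ R J X).inv) (qφ q y ≫ (α_ R J Y).inv) := by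
  obtain ⟨t, ht⟩ := P.exists_relD q hA h
  have h2 : q.RelD (y ≫ (α_ R J X).inv) ((t ≫ (α_ R J Y).hom) ≫ (α_ R J Y).inv) := by
    rw [Category.assoc, Iso.hom_inv_id, Category.comp_id]
    exact ht
  rw [qφ_eq P q hA h2]
  exact h2

/-- the quotient of `clos J G` -/
noncomputable def closQ : Quo (G.clos J) (J ⊗ Y) where
  φ y := qφ q y
  zero hA := qφ_eq P q hA fun B hB e => by
    rw [zero_comp, zero_comp, push_zero', push_zero', q.zero (isSphere_tensor hB hA)]
  sub hA y y' h h' := qφ_eq P q hA fun B hB e => by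
    rw [Preadditive.sub_comp, Preadditive.sub_comp, push_sub, push_sub,
      q.sub (isSphere_tensor hB hA) (h B hB e) (h' B hB e), exists_qφ P q hA h B hB e,
      exists_qφ P q hA h' B hB e]
  comp {A A'} hA hA' u y h := qφ_eq P q hA' fun B hB e => by
    rw [Category.assoc, Category.assoc, push_comp_left e u, push_comp_left e u,
      q.comp (isSphere_tensor hB hA) (isSphere_tensor hB hA') _ (h B hB e),
      exists_qφ P q hA h B hB e]
  op {S A} hS hA e' y h := qφ_eq P q (isSphere_tensor hS hA) fun B hB e => by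
    rw [push_assoc, push_assoc, push_push, push_push,
      q.comp (isSphere_tensor (isSphere_tensor hB hS) hA)
        (isSphere_tensor hB (isSphere_tensor hS hA)) _ (h _ (isSphere_tensor hB hS) _),
      exists_qφ P q hA h _ (isSphere_tensor hB hS) _]
  surj hA t := by
    obtain ⟨z, hz, hzt⟩ := P.surj q hA (t ≫ (α_ R J Y).inv)
    have h1 : (z ≫ (α_ R J X).hom) ≫ (α_ R J X).inv = z := by
      rw [Category.assoc, Iso.hom_inv_id, Category.comp_id]
    refine ⟨z ≫ (α_ R J X).hom, ?_, qφ_eq P q hA ?_⟩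
    · change G.memD _
      rw [h1]
      exact hz
    · rw [h1]
      exact hzt

theorem closQ_ker {A : T} (hA : IsSphere A) (y : A ⟶ R ⊗ (J ⊗ X)) :
    (closQ P q).ker.mem y ↔ (q.ker.clos J).mem y := by
  constructor
  · rintro ⟨h1, h2⟩ B hB e
    refine ⟨h1 B hB e, ?_⟩
    have h3 := exists_qφ P q hA h1 B hB e
    change qφ q y = 0 at h2
    rw [h2, zero_comp, push_zero'] at h3
    exact h3
  · intro h
    refine ⟨fun B hB e => (h B hB e).1, ?_⟩
    refine qφ_eq P q hA fun B hB e => ?_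
    rw [zero_comp, push_zero']
    exact (h B hB e).2

include P in
/-- **Closure** of filtrations under `J ⊗ -`. -/
theorem _root_.Vale.Agent.P221.E.Fl.clos {𝒴 𝒴' : T → Prop}
    (h𝒴 : ∀ Y, 𝒴 Y → 𝒴' (J ⊗ Y)) {m : ℕ} (h : Fl 𝒴 m G) : Fl 𝒴' m (G.clos J) := by
  induction h with
  | zero h0 =>
    refine Fl.zero fun A y hA hy => ?_
    have h1 : y ≫ (α_ R J X).inv = 0 := P.unique hA fun B hB e =>
      h0 _ _ (isSphere_tensor hB hA) (hy B hB e)
    rw [← cancel_mono (α_ R J X).inv, h1, zero_comp]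
  | succ q hY _ ih =>
    exact Fl.succ (closQ P q) (h𝒴 _ hY) (ih.congr fun A hA y => closQ_ker P q hA y)

include P in
/-- **Closure** for objects. -/
theorem fl_tensor {𝒴 𝒴' : T → Prop} (h𝒴 : ∀ Y, 𝒴 Y → 𝒴' (J ⊗ Y)) {m : ℕ}
    (h : Fl 𝒴 m (OpSub.top R X)) : Fl 𝒴' m (OpSub.top R (J ⊗ X)) :=
  (h.clos P h𝒴).congr fun _ _ _ => ⟨fun _ _ _ _ => trivial, fun _ => trivial⟩

end

theorem fl_iso {R X X' : T} {𝒴 : T → Prop} (i : X ≅ X') {m : ℕ}
    (h : Fl 𝒴 m (OpSub.top R X)) : Fl 𝒴 m (OpSub.top R X') :=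
  h.iso i fun _ _ _ => ⟨fun _ => trivial, fun _ => trivial⟩

/-- `R ⊗ (J ⊗ Y) ⟶ J ⊗ (R ⊗ Y)` -/
def swp (R J Y : T) : R ⊗ (J ⊗ Y) ⟶ J ⊗ (R ⊗ Y) :=
  (α_ R J Y).inv ≫ (β_ R J).hom ▷ Y ≫ (α_ J R Y).hom

theorem un_swp (R : T) [MonObj R] (J Y : T) : un R (J ⊗ Y) ≫ swp R J Y = J ◁ un R Y := by
  simp only [un, swp, Category.assoc, MonoidalCategory.whiskerLeft_comp]
  rw [associator_inv_naturality_left_assoc, ← comp_whiskerRight_assoc,
    BraidedCategory.braiding_naturality_left, comp_whiskerRight_assoc,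
    associator_naturality_middle, braiding_tensorUnit_left]
  simp

theorem HasAct.tensor {R : T} [MonObj R] {Y : T} (h : HasAct R Y) (J : T) : HasAct R (J ⊗ Y) := by
  obtain ⟨a, ha⟩ := h
  refine ⟨swp R J Y ≫ J ◁ a, ?_⟩
  rw [← Category.assoc, un_swp, ← MonoidalCategory.whiskerLeft_comp, ha,
    MonoidalCategory.whiskerLeft_id]

/-- retracts -/
noncomputable def _root_.Vale.Agent.P221.E.AddR.retract {R D D' : T} (d : AddR R D) (i : D' ⟶ D) (r : D ⟶ D')
    (h : i ≫ r = 𝟙 D') : AddR R D' where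
  I := d.I
  S := d.S
  sph := d.sph
  ι := i ≫ d.ι
  r := d.r ≫ r
  ι_r := by rw [Category.assoc, reassoc_of% d.ι_r, h]

/-- `R ⊗ S` for a sphere `S` -/
noncomputable def addR_sphere (R : T) {S : T} (hS : IsSphere S) : AddR R (R ⊗ S) where
  I := Unit
  S _ := S
  sph _ := hS
  ι := (β_ R S).hom ≫ Sigma.ι (fun _ : Unit => S ⊗ R) ()
  r := Sigma.desc fun _ => (β_ R S).inv
  ι_r := by simp

/-- `∐ (S ⊗ R) ⟶ (∐ S) ⊗ R` -/
noncomputable def cmpR {J : Type} (R : T) (S : J → T) : (∐ fun j => S j ⊗ R) ⟶ (∐ S) ⊗ R :=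
  sigmaComparison (tensorRight R) S

instance {J : Type} (R : T) (S : J → T) : IsIso (cmpR R S) := by
  unfold cmpR
  infer_instance

/-- `R ⊗ R` is a sum of suspensions of `R`. -/
noncomputable def addR_basR {R : T} [MonObj R] (b : BasR R) : AddR R (R ⊗ R) :=
  haveI := b.isIso
  { I := b.J
    S := b.S
    sph := b.sph
    ι := inv (cmpR R b.S ≫ rb (ModStr.self R) (Sigma.desc b.w))
    r := cmpR R b.S ≫ rb (ModStr.self R) (Sigma.desc b.w)
    ι_r := IsIso.inv_hom_id _ }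

end Vale.Agent.P221.E.H817
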