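import Vale.Agent.P221.E.H817.Clo
import Vale.Agent.P221.H817.Col
import Vale.Agent.P251.S.TensorShift

/-!
# P221, part E (helper817): the collapse for filtered objects

* `addR_unitCof`, `addR_sphere` : `AddR R (R ⊗ J)` for the cofibre `J` of the unit, for spheres;
* `FreeOn.shift` : bases of `R ⊗ W⟦1⟧`;
* `col_of_fl` : `[W, X]` is the group of primitive elements of `[W, R ⊗ X]`, for bounded below `X`
  with a filtration of `R_* X`.
-/

open CategoryTheory MonoidalCategory MonObj Limits Pretriangulated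
open Vale.Agent.P251.S Vale.Agent.P251.T Vale.Agent.P251.M Vale.Agent.P093.Nak
open Vale.Agent.P257.H762 Vale.Agent.P221.H817.Col
open Vale.Agent.P221.H658 (rb ru)

set_option linter.unusedSectionVars false

universe u

noncomputable section

namespace Vale.Agent.P221.E.H817

variable {T : Type u} [Category.{0} T] [Preadditive T] [HasZeroObject T]
    [HasShift T ℤ] [∀ n : ℤ, (shiftFunctor T n).Additive] [Pretriangulated T] [IsTriangulated T]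
    [MonoidalCategory T] [SymmetricCategory T] [TensorTriangulated T] [MonoidalClosed T]
    [HasCoproducts.{0} T] [HasProducts.{0} T] [StableCat T]

section

variable {R : T} [MonObj R]

/-- `R ⊗ J` for the cofibre `J` of the unit -/
theorem addR_unitCof (b : BasR R) (U : UnitCof R) : Nonempty (AddR R (R ⊗ U.J)) := by
  obtain ⟨σ, h1, -⟩ := exists_section_of_retraction _
    (tensorLeftTriangle_distinguished R _ U.dist) ((R ◁ 𝟙 R) ≫ μ[R] ≫ (ρ_ R).inv) (by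
      change R ◁ η[R] ≫ (R ◁ 𝟙 R) ≫ μ[R] ≫ (ρ_ R).inv = 𝟙 (R ⊗ 𝟙_ T)
      rw [MonoidalCategory.whiskerLeft_id, Category.id_comp, MonObj.mul_one_assoc]
      simp)
  exact ⟨(addR_basR b).retract σ (R ◁ U.ρ) h1⟩

/-- `𝟙⟦k⟧ ⊗ Z ≅ Z⟦k⟧` -/
def shI (k : ℤ) (Z : T) : ((𝟙_ T)⟦k⟧) ⊗ Z ≅ Z⟦k⟧ :=
  β_ _ _ ≪≫ csh Z k (𝟙_ T) ≪≫ (shiftFunctor T k).mapIso (ρ_ Z)

theorem fl_J {𝒴 : T → Prop} (b : BasR R) (U : UnitCof R) (h𝒴 : ∀ Y, 𝒴 Y → 𝒴 (U.J ⊗ Y)) {m : ℕ}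
    {X : T} (h : Fl 𝒴 m (OpSub.top R X)) : Fl 𝒴 m (OpSub.top R (U.J ⊗ X)) :=
  fl_tensor (addR_unitCof b U).some h𝒴 h

theorem fl_shift {𝒴 : T → Prop} (k : ℤ) (h𝒴 : ∀ Y, 𝒴 Y → 𝒴 ((𝟙_ T)⟦k⟧ ⊗ Y)) {m : ℕ}
    {X : T} (h : Fl 𝒴 m (OpSub.top R X)) : Fl 𝒴 m (OpSub.top R (X⟦k⟧)) :=
  fl_iso (shI k X) (fl_tensor (addR_sphere R (isSphere_one_shift k)) h𝒴 h)

theorem fl_nx {𝒴 : T → Prop} (b : BasR R) (U : UnitCof R) (h𝒴 : ∀ J Y, 𝒴 Y → 𝒴 (J ⊗ Y)) {m : ℕ}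
    {X : T} (h : Fl 𝒴 m (OpSub.top R X)) : Fl 𝒴 m (OpSub.top R (nx U X)) :=
  fl_shift (-1) (h𝒴 _) (fl_J b U (h𝒴 _) h)

/-! ### Comparison of cochains -/

theorem ru_assoc (R : T) [MonObj R] (X : T) :
    ru R R ▷ X ≫ (α_ R R X).hom = R ◁ unitMap R X := by
  unfold ru unitMap
  rw [comp_whiskerRight, Category.assoc, associator_naturality_middle,
    MonoidalCategory.whiskerLeft_comp]
  simp

theorem un_asc (R : T) [MonObj R] (X Y : T) :
    Vale.Agent.P093.Nak.un R X ▷ Y ≫ (α_ R X Y).hom = unitMap R (X ⊗ Y) := by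
  unfold Vale.Agent.P093.Nak.un unitMap
  rw [comp_whiskerRight, Category.assoc, associator_naturality_left]
  simp

theorem dR_assoc (R : T) [MonObj R] (X : T) :
    dR R ▷ X ≫ (α_ R R X).hom = R ◁ unitMap R X - unitMap R (R ⊗ X) := by
  unfold dR
  have h : (ru R R - un R R) ▷ X = ru R R ▷ X - un R R ▷ X := (tensorRight X).map_sub
  rw [h, Preadditive.sub_comp, ru_assoc, un_asc]

theorem prim_of_coc0 {W X : T} {f : W ⟶ R ⊗ X} (h : Prim f) : Coc0 R f := by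
  unfold Prim at h
  have h1 := congrArg (fun a => a ≫ (α_ R R X).hom) h
  simp only [Category.assoc, zero_comp] at h1
  rw [dR_assoc, Preadditive.comp_sub, sub_eq_zero] at h1
  exact h1.symm

theorem dRR_assoc (R : T) [MonObj R] (X : T) :
    dRR R ▷ X ≫ (α_ R (R ⊗ R) X).hom ≫ R ◁ (α_ R R X).hom =
      (α_ R R X).hom ≫ (unitMap R (R ⊗ R ⊗ X) - R ◁ unitMap R (R ⊗ X) + R ◁ R ◁ unitMap R X) := by
  have h : ∀ (a b c : R ⊗ R ⟶ R ⊗ R ⊗ R), (a - b + c) ▷ X = a ▷ X - b ▷ X + c ▷ X := by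
    intro a b c
    have h1 : (a - b + c) ▷ X = (a - b) ▷ X + c ▷ X := (tensorRight X).map_add
    have h2 : (a - b) ▷ X = a ▷ X - b ▷ X := (tensorRight X).map_sub
    rw [h1, h2]
  unfold dRR
  rw [h]
  simp only [Preadditive.sub_comp, Preadditive.add_comp, Preadditive.comp_sub,
    Preadditive.comp_add]
  congr 1
  · congr 1
    · rw [reassoc_of% (un_asc R (R ⊗ R) X), ← unitMap_nat]
    · rw [whisker_assoc_assoc, Iso.inv_hom_id_assoc, ← MonoidalCategory.whiskerLeft_comp,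
        un_asc]
  · rw [whisker_assoc_assoc, Iso.inv_hom_id_assoc, ← MonoidalCategory.whiskerLeft_comp, ru_assoc]

/-- `Ext¹ = 0` in terms of the `1`-cocycles `W ⟶ R ⊗ R ⊗ X` -/
theorem coc1_of_h1 {W X : T} (h : H1 R W X) (K : W ⟶ R ⊗ R ⊗ X) (hK : Coc1 R K) :
    ∃ g : W ⟶ R ⊗ X, K = g ≫ (R ◁ unitMap R X) - g ≫ unitMap R (R ⊗ X) := by
  obtain ⟨g, hg⟩ := h (K ≫ (α_ R R X).inv) (by
    unfold Cyc
    rw [← cancel_mono ((α_ R (R ⊗ R) X).hom ≫ R ◁ (α_ R R X).hom), zero_comp, Category.assoc,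
      Category.assoc, dRR_assoc, Iso.inv_hom_id_assoc, Preadditive.comp_add, Preadditive.comp_sub]
    exact hK)
  refine ⟨g, ?_⟩
  rw [← cancel_mono (α_ R R X).inv, hg, ← Preadditive.comp_sub, ← dR_assoc, Category.assoc,
    Category.assoc, Iso.hom_inv_id, Category.comp_id]

/-! ### Bases of `R ⊗ W⟦1⟧` -/

/-- the generators of `R ⊗ W⟦k⟧` -/
def shw (k : ℤ) {S W : T} (w : S ⟶ R ⊗ W) : S⟦k⟧ ⟶ R ⊗ (W⟦k⟧) := w⟦k⟧' ≫ (csh R k W).inv

theorem lin_shw (k : ℤ) {S W : T} (w : S ⟶ R ⊗ W) :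
    lin (ModStr.free R (W⟦k⟧)) (shw k w) =
      (csh R k S).hom ≫ (lin (ModStr.free R W) w)⟦k⟧' ≫ (csh R k W).inv := by
  change (R ◁ (w⟦k⟧' ≫ (csh R k W).inv)) ≫ mulMap R (W⟦k⟧) =
    (csh R k S).hom ≫ ((R ◁ w) ≫ mulMap R W)⟦k⟧' ≫ (csh R k W).inv
  rw [← cancel_mono (csh R k W).hom, Functor.map_comp]
  simp only [Category.assoc, Iso.inv_hom_id, Category.comp_id, MonoidalCategory.whiskerLeft_comp]
  rw [mulMap_csh, ← csh_nat_assoc, ← MonoidalCategory.whiskerLeft_comp_assoc R (csh R k W).inv,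
    Iso.inv_hom_id]
  simp

/-- bases of `R ⊗ W⟦k⟧` -/
def shiftFree (k : ℤ) {W : T} (b : FreeOn R W) : FreeOn R (W⟦k⟧) where
  J := b.J
  S j := (b.S j)⟦k⟧
  sph j := (b.sph j).shift k
  w j := shw k (b.w j)
  isIso := by
    have h0 := b.isIso
    have e : (Sigma.desc fun j => lin (ModStr.free R (W⟦k⟧)) (shw k (b.w j))) =
        Limits.Sigma.map (fun j => (csh R k (b.S j)).hom) ≫
          sigmaComparison (shiftFunctor T k) (fun j => R ⊗ b.S j) ≫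
            (Sigma.desc fun j => lin (ModStr.free R W) (b.w j))⟦k⟧' ≫ (csh R k W).inv := by
      refine Sigma.hom_ext _ _ fun j => ?_
      rw [Sigma.ι_desc, lin_shw, Sigma.ι_map_assoc]
      rw [ι_comp_sigmaComparison_assoc, ← Functor.map_comp_assoc, Sigma.ι_desc]
    rw [e]
    have h1 : IsIso (Limits.Sigma.map (fun j => (csh R k (b.S j)).hom)) := inferInstance
    have h2 : IsIso (sigmaComparison (shiftFunctor T k) (fun j => R ⊗ b.S j)) := inferInstance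
    infer_instance

/-- **(C)** `[W, X]` is the group of primitive elements of `[W, R ⊗ X]`. -/
theorem col_of_fl (h0 : Conn (0 : ℤ) (𝟙_ T)) (b : BasR R) (U : UnitCof R) {P : T → Prop}
    (hP : ∀ J Y, P Y → P (J ⊗ Y)) (hP1 : ∀ Y, P Y → P (Y⟦(-1 : ℤ)⟧)) (hJ : Raise U P)
    {W X : T} {m : ℕ}
    (hH : ∀ Y, Fl (HasAct R) m (OpSub.top R Y) → H1 R (W⟦(1 : ℤ)⟧) Y) {c : ℤ}
    (hc : BigCell T c X) (hPX : P X) (hX : Fl (HasAct R) m (OpSub.top R X)) : Col R W X := by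
  obtain ⟨h1, h2⟩ := collapse (R := R) (U := U)
    (F := fun Y => P Y ∧ Fl (HasAct R) m (OpSub.top R Y)) h0
    (fun c Y hY hc => hJ c Y hY.1 hc)
    (fun Y hY => ⟨hP1 _ (hP _ _ hY.1),
      fl_nx (𝒴 := HasAct R) b U (fun J Z hZ => HasAct.tensor hZ J) hY.2⟩)
    (fun Y hY => ⟨hP _ _ hY.1,
      fl_J (𝒴 := HasAct R) b U (fun Z hZ => HasAct.tensor hZ _) hY.2⟩) (W := W)
    (fun Y hY => coc1_of_h1 (hH Y hY.2)) ⟨hPX, hX⟩ hc
  intro f hf
  obtain ⟨a, ha⟩ := h2 f (prim_of_coc0 hf)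
  exact ⟨a, ha, fun a' ha' => h1 (ha'.trans ha.symm)⟩

end

end Vale.Agent.P221.E.H817
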