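import Vale.Agent.P221.H817.Col
import Vale.Agent.P221.H246.BPB
import Vale.Agent.P221.H136.TopC

/-!
# P221, part E (helper817): the cofibre of the unit of the Brown-Peterson monoid

`B` is the Brown-Peterson monoid, `J` the cofibre of its unit (`J` itself is not `1`-connected,
since the unit is not `p`-local). For `p`-local `Y` the object `J ⊗ Y` is a retract of
`J' ⊗ Y`, `J'` the cofibre of the unit of `MU`; hence `raise_bp`.
-/

open CategoryTheory MonoidalCategory MonObj Limits Pretriangulated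

set_option linter.unusedSectionVars false

universe u

noncomputable section

namespace Vale.Agent.P221.E.H817

open Vale.Agent.P251 Vale.Agent.P251.S Vale.Agent.P251.T Vale.Agent.P251.M Vale.Agent.P251.F
  Vale.Agent.P251.I EvenSpheres Vale.Agent.P257.H80 Vale.Agent.P257.H762
  Vale.Agent.P221.H246 Vale.Agent.P221.H817.Col

variable {𝒯 : Type u} [Category.{0} 𝒯] [Preadditive 𝒯] [HasZeroObject 𝒯]
    [HasShift 𝒯 ℤ] [∀ n : ℤ, (shiftFunctor 𝒯 n).Additive] [Pretriangulated 𝒯] [IsTriangulated 𝒯]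
    [MonoidalCategory 𝒯] [SymmetricCategory 𝒯] [TensorTriangulated 𝒯] [MonoidalClosed 𝒯]
    [HasCoproducts.{0} 𝒯] [HasProducts.{0} 𝒯] [StableCat 𝒯]

variable {D : MUData 𝒯} {F : SpaceFunctor 𝒯} {e : F.S.obj CCF ≅ (stdEven 𝒯).L}
  {p : ℕ} [hp : Fact p.Prime] {B : 𝒯} [MonObj B] [IsCommMonObj B] {b : D.R ⟶ B} [IsMonHom b]

/-- `B` is a retract of the `p`-localization of `MU`. -/
theorem exists_retract (hD : MUUniv e D) (hb : IsBPMon p b) {Rp : 𝒯} [MonObj Rp]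
    [IsCommMonObj Rp] {l : D.R ⟶ Rp} [IsMonHom l] (h : IsLoc p l) :
    ∃ (s : B ⟶ Rp) (_ : IsMonHom s) (r : Rp ⟶ B) (_ : IsMonHom r), l ≫ r = b ∧ s ≫ r = 𝟙 B := by
  obtain ⟨s, hs, hbs⟩ := hb.exists_map Rp h.loc (typM hD h.loc l) _ (lawOf_typM hD h.loc l)
  obtain ⟨r, hr, hlr⟩ := h.exists_mon hb.loc b
  refine ⟨s, hs, r, hr, hlr, hb.uniq B hb.loc _ _ ?_⟩
  rw [← Category.assoc, hbs, ← typM_comp hD h.loc l hb.loc r, Category.comp_id]
  exact (typM_congr hD _ hlr).trans (typM_of_isHaz hD _ _ hb.law)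

theorem locO_tensor {Y : 𝒯} (h : LocO p Y) (X : 𝒯) : LocO p (X ⊗ Y) :=
  Vale.Agent.P257.H604.LocObj.map h (tensorLeft X)

theorem locO_shift {Y : 𝒯} (h : LocO p Y) (k : ℤ) : LocO p (Y⟦k⟧) :=
  Vale.Agent.P257.H604.LocObj.map h (shiftFunctor 𝒯 k)

theorem isIso_whisker {X Y : 𝒯} {l : X ⟶ Y} (h : IsLoc p l) {Z : 𝒯} (hZ : LocO p Z) :
    IsIso (l ▷ Z) := by
  obtain ⟨f, hf⟩ := (h.bij (X ⊗ Z) (locO_tensor hZ X) Z).2 (𝟙 _)
  dsimp only at hf
  refine ⟨f, hf, ?_⟩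
  apply (h.bij (Y ⊗ Z) (locO_tensor hZ Y) Z).1
  dsimp only
  rw [reassoc_of% hf, Category.comp_id]

theorem unit_whisker {A A' : 𝒯} [MonObj A] [MonObj A'] (f : A ⟶ A') [IsMonHom f] (Y : 𝒯) :
    unitMap A Y ≫ f ▷ Y = unitMap A' Y := by
  rw [unitMap, unitMap, Category.assoc, ← comp_whiskerRight, IsMonHom.one_hom]

/-- For `p`-local `Y` the object `J ⊗ Y` is more connected than `Y`. -/
theorem bigCell_J (hD : MUUniv e D) (hb : IsBPMon p b) (U : UnitCof B) {Y : 𝒯} (hY : LocO p Y)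
    {c : ℤ} (hc : BigCell 𝒯 c Y) : BigCell 𝒯 (2 + c) (U.J ⊗ Y) := by
  obtain ⟨V⟩ := exists_unitCof D.R
  have hV : BigCell 𝒯 (2 + c) (V.J ⊗ Y) := (D.conn _ _ _ V.dist).tensor hc _ rfl
  obtain ⟨Rp, i1, i2, l, i3, hl⟩ := Vale.Agent.P257.H604.exists_isPLoc hp.out D.R
  have h : IsLoc p l := IsPLoc.isLoc hl
  obtain ⟨s, hs, r, hr, hlr, hsr⟩ := exists_retract hD hb h
  have h1 : IsIso (l ▷ Y) := isIso_whisker h hY
  let m : B ⊗ Y ⟶ D.R ⊗ Y := (s ▷ Y) ≫ inv (l ▷ Y)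
  have hm : unitMap B Y ≫ m = unitMap D.R Y := by
    rw [← Category.assoc, IsIso.comp_inv_eq, unit_whisker, unit_whisker]
  have hn : unitMap D.R Y ≫ b ▷ Y = unitMap B Y := unit_whisker b Y
  have hmn : m ≫ b ▷ Y = 𝟙 _ := by
    change ((s ▷ Y) ≫ inv (l ▷ Y)) ≫ b ▷ Y = 𝟙 _
    rw [← hlr, comp_whiskerRight, Category.assoc, IsIso.inv_hom_id_assoc, ← comp_whiskerRight, hsr,
      id_whiskerRight]
  obtain ⟨f, hf1, hf2⟩ := complete_distinguished_triangle_morphism _ _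
    (U.triangle_distinguished Y) (V.triangle_distinguished Y) (𝟙 Y) m
    (by change unitMap B Y ≫ m = 𝟙 Y ≫ unitMap D.R Y; rw [hm, Category.id_comp])
  obtain ⟨g, hg1, hg2⟩ := complete_distinguished_triangle_morphism _ _
    (V.triangle_distinguished Y) (U.triangle_distinguished Y) (𝟙 Y) (b ▷ Y)
    (by change unitMap D.R Y ≫ b ▷ Y = 𝟙 Y ≫ unitMap B Y; rw [hn, Category.id_comp])
  change U.J ⊗ Y ⟶ V.J ⊗ Y at f
  change V.J ⊗ Y ⟶ U.J ⊗ Y at g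
  change U.ρ ▷ Y ≫ f = m ≫ V.ρ ▷ Y at hf1
  change U.bdry Y ≫ (𝟙 Y)⟦(1 : ℤ)⟧' = f ≫ V.bdry Y at hf2
  change V.ρ ▷ Y ≫ g = b ▷ Y ≫ U.ρ ▷ Y at hg1
  change V.bdry Y ≫ (𝟙 Y)⟦(1 : ℤ)⟧' = g ≫ U.bdry Y at hg2
  have hiso : IsIso (f ≫ g) := by
    let φ : U.triangle Y ⟶ U.triangle Y :=
      { hom₁ := 𝟙 _
        hom₂ := 𝟙 _
        hom₃ := f ≫ g
        comm₁ := by rw [Category.comp_id, Category.id_comp]
        comm₂ := by
          change U.ρ ▷ Y ≫ f ≫ g = 𝟙 _ ≫ U.ρ ▷ Y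
          rw [reassoc_of% hf1, hg1, reassoc_of% hmn, Category.id_comp]
        comm₃ := by
          change U.bdry Y ≫ (𝟙 Y)⟦(1 : ℤ)⟧' = (f ≫ g) ≫ U.bdry Y
          rw [Category.assoc, ← hg2, ← Category.assoc, ← hf2]
          simp }
    exact isIso₃_of_isIso₁₂ φ (U.triangle_distinguished Y) (U.triangle_distinguished Y)
      (by change IsIso (𝟙 _); infer_instance) (by change IsIso (𝟙 _); infer_instance)
  refine bigCell_of_conn D.conn_unit (Conn.of_retract f (g ≫ inv (f ≫ g)) ?_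
    (BigCell.conn' D.conn_unit hV))
  rw [← Category.assoc, IsIso.hom_inv_id]

/-- the hypothesis of `collapse` for classes of `p`-local objects -/
theorem raise_bp (hD : MUUniv e D) (hb : IsBPMon p b) (U : UnitCof B) {P : 𝒯 → Prop}
    (hP : ∀ Y, P Y → LocO p Y) : Raise U P := fun _ Y hY hc => bigCell_J hD hb U (hP Y hY) hc

end Vale.Agent.P221.E.H817
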