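import Vale.Agent.P221.E.H817.Clo2
import Vale.Agent.P221.E.H817.Raise
import Vale.Agent.P221.E.H903.T
import Vale.Agent.P221.H246.BPC

/-!
# P221, part E (helper817): the collapse for the Brown-Peterson monoid

* `freeOn_one k : FreeOn R (𝟙⟦k⟧)`, `freeOn_bp hD hb k : FreeOn B (B⟦k⟧)`;
* `col_bp` : `Col B W X` for `p`-local bounded below `X` with a filtration of `B_* X`;
  `col_bp_one`, `col_bp_self`.
-/

open CategoryTheory MonoidalCategory MonObj Limits Pretriangulated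

set_option linter.unusedSectionVars false

universe u

noncomputable section

namespace Vale.Agent.P221.E.H817

open Vale.Agent.P251 Vale.Agent.P251.S Vale.Agent.P251.T Vale.Agent.P251.M Vale.Agent.P251.F
  Vale.Agent.P251.I EvenSpheres Vale.Agent.P257.H80 Vale.Agent.P257.H762 Vale.Agent.P093.Nak
  Vale.Agent.P221.H246 Vale.Agent.P221.H817.Col

variable {𝒯 : Type u} [Category.{0} 𝒯] [Preadditive 𝒯] [HasZeroObject 𝒯]
    [HasShift 𝒯 ℤ] [∀ n : ℤ, (shiftFunctor 𝒯 n).Additive] [Pretriangulated 𝒯] [IsTriangulated 𝒯]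
    [MonoidalCategory 𝒯] [SymmetricCategory 𝒯] [TensorTriangulated 𝒯] [MonoidalClosed 𝒯]
    [HasCoproducts.{0} 𝒯] [HasProducts.{0} 𝒯] [StableCat 𝒯]

/-- `lin` of the unit map -/
theorem lin_unit (R : 𝒯) [MonObj R] (X : 𝒯) :
    lin (ModStr.free R X) (Vale.Agent.P093.Nak.un R X) = 𝟙 _ := by
  have h := lin_un (ModStr.free R X) (𝟙 (R ⊗ X)) (by
    change (ModStr.free R X).act ≫ 𝟙 _ = (R ◁ 𝟙 (R ⊗ X)) ≫ (ModStr.free R X).act
    simp)
  rwa [Category.comp_id] at h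

/-- the basis of `R ⊗ S` -/
def freeOnS (R : 𝒯) [MonObj R] {S : 𝒯} (hS : IsSphere S) : FreeOn R S where
  J := Unit
  S _ := S
  sph _ := hS
  w _ := Vale.Agent.P093.Nak.un R S
  isIso := by
    have h : (Sigma.desc fun _ : Unit => lin (ModStr.free R S) (Vale.Agent.P093.Nak.un R S)) =
        Sigma.desc fun _ : Unit => 𝟙 (R ⊗ S) := by
      rw [lin_unit]
    rw [h]
    refine ⟨Sigma.ι (fun _ : Unit => R ⊗ S) (), ?_, ?_⟩
    · refine Sigma.hom_ext _ _ fun _ => ?_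
      rw [Sigma.ι_desc_assoc, Category.id_comp, Category.comp_id]
    · rw [Sigma.ι_desc]

/-- `FreeOn R (𝟙⟦k⟧)` -/
def freeOn_one (R : 𝒯) [MonObj R] (k : ℤ) : FreeOn R ((𝟙_ 𝒯)⟦k⟧) := freeOnS R (isSphere_one_shift k)

/-- a basis in the sense of `RBasis` -/
def freeOn_of {R X : 𝒯} [MonObj R] {J : Type} (b : RBasis (stdEven 𝒯) R X J) : FreeOn R X where
  J := J
  S j := (stdEven 𝒯).S (b.k j)
  sph j := isSphere_std (b.k j)
  w := b.w
  isIso := b.isIso

variable {D : MUData 𝒯} {F : SpaceFunctor 𝒯} {e : F.S.obj CCF ≅ (stdEven 𝒯).L}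
  {p : ℕ} [hp : Fact p.Prime] {B : 𝒯} [MonObj B] [IsCommMonObj B] {b : D.R ⟶ B} [IsMonHom b]

/-- `FreeOn B (B⟦k⟧)` -/
def freeOn_bp (hD : MUUniv e D) (hb : IsBPMon p b) (k : ℤ) : FreeOn B (B⟦k⟧) :=
  shiftFree k (freeOn_of (rbB hD hb))

/-- **(C)** for the Brown-Peterson monoid -/
theorem col_bp (hD : MUUniv e D) (hb : IsBPMon p b) (c : BasR B) {W X : 𝒯} (w : FreeOn B W) {m : ℕ}
    {n : ℤ} (hn : Conn n X) (hX : LocO p X) (hF : Fl (HasAct B) m (OpSub.top B X)) :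
    Col B W X := by
  obtain ⟨U⟩ := exists_unitCof B
  exact col_of_fl D.conn_unit c U (P := LocO p) (fun J Y hY => locO_tensor hY J)
    (fun Y hY => locO_shift hY (-1)) (raise_bp hD hb U fun _ h => h)
    (fun Y hY => h1_of_fl (shiftFree 1 w) c hY) (bigCell_of_conn D.conn_unit hn) hX hF

/-- **(C)** for the Brown-Peterson monoid, `X` `p`-complete -/
theorem col_bp' (hD : MUUniv e D) (hb : IsBPMon p b) (c : BasR B) {W X : 𝒯} (w : FreeOn B W)
    {m : ℕ} {n : ℤ} (hn : Conn n X) (hX : H395.PComplete p X)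
    (hF : Fl (HasAct B) m (OpSub.top B X)) : Col B W X :=
  col_bp hD hb c w hn (Vale.Agent.P221.H136.locO_of_pComplete hp.out hX) hF

end Vale.Agent.P221.E.H817
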